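import Vale.Agent.Lib.P302.Defs
import Vale.Agent.Lib.P302.helper49.Perfect

namespace Vale.Agent.Lib.P302

open Finset

theorem packable_mono {n : ℕ} {a : Fin n → ℚ} {k k' : ℕ} (h : Packable a k) (hk : k ≤ k') :
    Packable a k' := by
  obtain ⟨f, hf⟩ := h
  refine ⟨fun i => Fin.castLE hk (f i), fun j => ?_⟩
  by_cases hj : (j : ℕ) < k
  · have : (univ.filter (fun i => Fin.castLE hk (f i) = j)) =
        univ.filter (fun i => f i = ⟨j, hj⟩) := by
      ext i
      simp only [mem_filter, mem_univ, true_and]
      constructor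
      · intro h1
        apply Fin.ext
        have := congrArg Fin.val h1
        simpa using this
      · intro h1
        apply Fin.ext
        simp [h1]
    rw [this]
    exact hf _
  · have : (univ.filter (fun i => Fin.castLE hk (f i) = j)) = ∅ := by
      ext i
      simp only [mem_filter, mem_univ, true_and, notMem_empty, iff_false]
      intro h1
      apply hj
      have := congrArg Fin.val h1
      simp only [Fin.val_castLE] at this
      rw [← this]
      exact (f i).2
    rw [this]
    simp

theorem packable_self {n : ℕ} {a : Fin n → ℚ} (h1 : ∀ i, a i ≤ 1) : Packable a n := by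
  refine ⟨id, fun j => ?_⟩
  have : (univ.filter (fun i : Fin n => id i = j)) = {j} := by
    ext i
    simp
  rw [this]
  simpa using h1 j

theorem le_OPT {n : ℕ} {a : Fin n → ℚ} (h1 : ∀ i, a i ≤ 1) {K : ℕ} (hK : ¬ Packable a K) :
    K + 1 ≤ OPT a := by
  by_contra hlt
  have hmem : OPT a ∈ {k : ℕ | Packable a k} := Nat.sInf_mem ⟨n, packable_self h1⟩
  exact hK (packable_mono hmem (by omega))

theorem LP_le {n : ℕ} {a : Fin n → ℚ} {m : ℕ} {c : Fin m → ℚ → ℕ} {z : Fin m → ℝ}
    (h : IsFracSol a c z) : LP a ≤ ∑ j, z j := by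
  apply csInf_le
  · refine ⟨0, ?_⟩
    rintro v ⟨m', c', z', hz, rfl⟩
    exact Finset.sum_nonneg (fun j _ => hz.2.1 j)
  · exact ⟨m, c, z, h, rfl⟩

/-- The instance with capacity `L` and the item lengths of the list `l`, scaled to capacity `1`. -/
def inst (L : ℕ) (l : List ℕ) : Fin l.length → ℚ := fun i => (l.get i : ℚ) / L

theorem inst_pos {L : ℕ} {l : List ℕ} (hL : 0 < L) (hl : ∀ x ∈ l, 0 < x) (i : Fin l.length) :
    0 < inst L l i := by
  have h := hl _ (List.get_mem l i)
  unfold inst
  positivity

theorem inst_le_one {L : ℕ} {l : List ℕ} (hL : 0 < L) (hl : ∀ x ∈ l, x ≤ L) (i : Fin l.length) :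
    inst L l i ≤ 1 := by
  have h := hl _ (List.get_mem l i)
  unfold inst
  rw [div_le_one (by exact_mod_cast hL)]
  exact_mod_cast h

theorem not_packable_inst {L : ℕ} {l : List ℕ} (hL : 0 < L) {K : ℕ}
    (h : ¬ helper49.Packable L (l : Multiset ℕ) K) : ¬ Packable (inst L l) K := by
  rintro ⟨f, hf⟩
  apply h
  have key := helper49.packable_of_assignment (L := L) (fun i => l.get i) f (by
    intro j
    have hj := hf j
    unfold inst at hj
    rw [← Finset.sum_div, div_le_one (by exact_mod_cast hL)] at hj
    exact_mod_cast hj)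
  rw [Fin.univ_val_map, List.ofFn_get] at key
  exact key

/-- The flattened list of item lengths of an instance given by types `(length, multiplicity)`. -/
def flat (ts : List (ℕ × ℕ)) : List ℕ := ts.flatMap (fun t => List.replicate t.2 t.1)

theorem coe_flat (ts : List (ℕ × ℕ)) : ((flat ts : List ℕ) : Multiset ℕ) = helper49.items ts := by
  induction ts with
  | nil => rfl
  | cons t ts ih =>
    rw [helper49.items_cons, ← ih]
    simp only [flat, List.flatMap_cons, ← Multiset.coe_add, Multiset.coe_replicate]

theorem sum_countP_le (L : ℕ) (S : Finset ℚ) (p : List ℕ) :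
    (∑ s ∈ S, s * ((p.countP (fun y : ℕ => decide (((y : ℚ) / L) = s)) : ℕ) : ℚ)) ≤ (p.sum : ℚ) / L := by
  induction p with
  | nil => simp
  | cons x p ih =>
    have hx : (0 : ℚ) ≤ (x : ℚ) / L := by positivity
    have h1 : ∀ s : ℚ, s * (((x :: p).countP (fun y : ℕ => decide (((y : ℚ) / L) = s)) : ℕ) : ℚ) =
        s * ((p.countP (fun y : ℕ => decide (((y : ℚ) / L) = s)) : ℕ) : ℚ) +
          (if (x : ℚ) / L = s then s else 0) := by
      intro s
      rw [List.countP_cons]
      by_cases hs : (x : ℚ) / L = s
      · simp [hs]; ring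
      · simp [hs]
    simp_rw [h1]
    rw [Finset.sum_add_distrib]
    have h2 : (∑ s ∈ S, (if (x : ℚ) / L = s then s else 0)) ≤ (x : ℚ) / L := by
      rw [Finset.sum_ite_eq]
      split_ifs
      · exact le_refl _
      · exact hx
    have h3 : (((x :: p).sum : ℕ) : ℚ) / L = (p.sum : ℚ) / L + (x : ℚ) / L := by
      rw [List.sum_cons]
      push_cast
      ring
    rw [h3]
    exact add_le_add ih h2

theorem sum_map_ite_count (l : List ℕ) (x : ℕ) :
    (l.map (fun y : ℕ => if y = x then 1 else 0)).sum = l.count x := by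
  induction l with
  | nil => simp
  | cons y l ih =>
    rw [List.map_cons, List.sum_cons, ih, List.count_cons]
    by_cases h : y = x
    · simp [h]; omega
    · simp [h]

theorem cast_sum_snd (ps : List (List ℕ × ℕ)) :
    (ps.map (fun p => ((p.2 : ℕ) : ℝ))).sum = (((ps.map Prod.snd).sum : ℕ) : ℝ) := by
  induction ps with
  | nil => simp
  | cons p ps ih => simp [ih]

theorem mult_inst {L : ℕ} (hL : 0 < L) (l : List ℕ) (x : ℕ) :
    mult (inst L l) ((x : ℚ) / L) = l.count x := by
  unfold mult inst
  have hL' : (L : ℚ) ≠ 0 := by exact_mod_cast hL.ne'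
  have h1 : (univ.filter (fun i : Fin l.length => (l.get i : ℚ) / L = (x : ℚ) / L)) =
      univ.filter (fun i : Fin l.length => l.get i = x) := by
    ext i
    simp only [mem_filter, mem_univ, true_and]
    constructor
    · intro h
      have := (div_left_inj' hL').mp h
      exact_mod_cast this
    · intro h
      rw [h]
  rw [h1, Finset.card_filter]
  have h2 := Fin.sum_univ_fun_getElem l (fun y : ℕ => if y = x then 1 else 0)
  simp only [List.get_eq_getElem]
  rw [h2]
  exact sum_map_ite_count l x

theorem LP_le_of_cert {L : ℕ} (hL : 0 < L) (l : List ℕ) (pats : List (List ℕ × ℕ)) {D : ℕ}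
    (hD : 0 < D) (hfit : ∀ p ∈ pats, p.1.sum ≤ L)
    (hcov : ∀ x ∈ l, D * l.count x ≤ (pats.map (fun p => p.1.count x * p.2)).sum) :
    LP (inst L l) ≤ ((pats.map Prod.snd).sum : ℝ) / D := by
  have hL' : (0 : ℚ) < L := by exact_mod_cast hL
  have hD' : (0 : ℝ) < D := by exact_mod_cast hD
  let c : Fin pats.length → ℚ → ℕ := fun j s => (pats[j.1]).1.countP (fun y : ℕ => decide (((y : ℚ) / L) = s))
  let z : Fin pats.length → ℝ := fun j => ((pats[j.1]).2 : ℝ) / D
  have hsol : IsFracSol (inst L l) c z := by
    refine ⟨fun j => ?_, fun j => ?_, fun s hs => ?_⟩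
    · refine le_trans (sum_countP_le L _ _) ?_
      rw [div_le_one hL']
      exact_mod_cast hfit _ (List.getElem_mem j.2)
    · positivity
    · obtain ⟨i, _, rfl⟩ := Finset.mem_image.mp hs
      have hx : l.get i ∈ l := List.get_mem l i
      have hc := hcov _ hx
      show (mult (inst L l) (inst L l i) : ℝ) ≤ _
      have hm : mult (inst L l) (inst L l i) = l.count (l.get i) := mult_inst hL l (l.get i)
      rw [hm]
      have hcj : ∀ j : Fin pats.length, c j (inst L l i) = (pats[j.1]).1.count (l.get i) := by
        intro j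
        show (pats[j.1]).1.countP (fun y : ℕ => decide (((y : ℚ) / L) = (l.get i : ℚ) / L)) = _
        rw [List.count_eq_countP]
        apply List.countP_congr
        intro y _
        have hLne : (L : ℚ) ≠ 0 := hL'.ne'
        simp only [decide_eq_true_eq, beq_iff_eq]
        constructor
        · intro h
          have := (div_left_inj' hLne).mp h
          exact_mod_cast this
        · intro h
          rw [h]
      have hsum : (∑ j, (c j (inst L l i) : ℝ) * z j) =
          (((pats.map (fun p => p.1.count (l.get i) * p.2)).sum : ℕ) : ℝ) / D := by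
        simp only [hcj, z]
        rw [← Fin.sum_univ_fun_getElem pats (fun p => p.1.count (l.get i) * p.2)]
        push_cast
        rw [Finset.sum_div]
        apply Finset.sum_congr rfl
        intro j _
        ring
      rw [hsum, le_div_iff₀ hD']
      have : ((l.count (l.get i) : ℕ) : ℝ) * D = ((D * l.count (l.get i) : ℕ) : ℝ) := by
        push_cast; ring
      rw [this]
      exact_mod_cast hc
  have h := LP_le hsol
  have hz : (∑ j, z j) = ((pats.map Prod.snd).sum : ℝ) / D := by
    simp only [z]
    rw [← Finset.sum_div]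
    congr 1
    have := Fin.sum_univ_fun_getElem pats (fun p => ((p.2 : ℕ) : ℝ))
    rw [this, cast_sum_snd]
  rw [hz] at h
  exact h

end Vale.Agent.Lib.P302
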