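import Mathlib

/-!
Bin packing: the optimum `OPT`, and the value `LP` of the Gilmore-Gomory configuration LP.
An instance is a family `a : Fin n → ℚ` of item sizes.
-/

namespace Vale.Agent.Lib.P302

/-- The items with sizes `a i` can be distributed into `k` bins, each of total size at most `1`. -/
def Packable {n : ℕ} (a : Fin n → ℚ) (k : ℕ) : Prop :=
  ∃ f : Fin n → Fin k, ∀ j : Fin k, (∑ i ∈ Finset.univ.filter (fun i => f i = j), a i) ≤ 1

/-- `OPT(I)`: the least number of bins into which the items can be packed. -/
noncomputable def OPT {n : ℕ} (a : Fin n → ℚ) : ℕ :=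
  sInf {k : ℕ | Packable a k}

/-- The multiplicity of the size `s` in the instance. -/
def mult {n : ℕ} (a : Fin n → ℚ) (s : ℚ) : ℕ :=
  (Finset.univ.filter (fun i => a i = s)).card

/-- A feasible solution of the configuration LP, written as a finite family of configurations
`c j` (where `c j s` is the number of items of size `s` in the configuration; a size may occur
more often than its multiplicity) with weights `z j`: every configuration fits into a bin, the
weights are nonnegative, and every size `s` of the instance is covered at least `mult a s`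
times. -/
def IsFracSol {n : ℕ} (a : Fin n → ℚ) {m : ℕ} (c : Fin m → ℚ → ℕ) (z : Fin m → ℝ) : Prop :=
  (∀ j, (∑ s ∈ Finset.univ.image a, s * (c j s : ℚ)) ≤ 1) ∧ (∀ j, 0 ≤ z j) ∧
    ∀ s ∈ Finset.univ.image a, (mult a s : ℝ) ≤ ∑ j, (c j s : ℝ) * z j

/-- `LP(I)`: the optimal value of the Gilmore-Gomory configuration LP, the infimum of the total
weight of a feasible solution. -/
noncomputable def LP {n : ℕ} (a : Fin n → ℚ) : ℝ :=
  sInf {v : ℝ | ∃ (m : ℕ) (c : Fin m → ℚ → ℕ) (z : Fin m → ℝ), IsFracSol a c z ∧ v = ∑ j, z j}

end Vale.Agent.Lib.P302
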